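import Vale.Agent.P204.Forms

namespace Vale.Agent.P204

open ContinuousAlternatingMap MeasureTheory Set

theorem sum_single (L : E4 →L[ℝ] ℝ) (u : E4) : ∑ i, u i * L (Pi.single i 1) = L u := by
  have h : u = ∑ i, u i • (Pi.single i (1 : ℝ) : E4) := by
    funext j
    simp [Finset.sum_apply, Pi.single_apply]
  conv_rhs => rw [h]
  simp [_root_.map_sum]

theorem extDeriv3 (ω : E4 → E4 [⋀^Fin 2]→L[ℝ] ℝ) (x : E4) (hd : DifferentiableAt ℝ ω x)
    (a b c : E4) :
    extDeriv ω x ![a, b, c] = fderiv ℝ (fun y => ω y ![b, c]) x a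
      - fderiv ℝ (fun y => ω y ![a, c]) x b + fderiv ℝ (fun y => ω y ![a, b]) x c := by
  rw [extDeriv_apply hd]
  have hsum := Fin.sum_univ_three (fun i : Fin 3 => (-1 : ℤ) ^ (i : ℕ) •
    fderiv ℝ (fun y => ω y (i.removeNth ![a, b, c])) x (![a, b, c] i))
  refine hsum.trans ?_
  have r0 : Fin.removeNth 0 ![a, b, c] = ![b, c] := by
    funext i; fin_cases i <;> rfl
  have r1 : Fin.removeNth 1 ![a, b, c] = ![a, c] := by
    funext i; fin_cases i <;> rfl
  have r2 : Fin.removeNth 2 ![a, b, c] = ![a, b] := by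
    funext i; fin_cases i <;> rfl
  rw [r0, r1, r2]
  simp
  ring

/-- The average over the fibre torus of the coefficient `ω (u, v)` at height `t`. -/
noncomputable def avg (ω : E4 → E4 [⋀^Fin 2]→L[ℝ] ℝ) (t : ℝ) (u v : E4) : ℝ :=
  ∫ y in Icc (0 : Fin 3 → ℝ) 1, ω (Fin.insertNth 0 t y) ![u, v]

theorem avg_const_le (ω : E4 → E4 [⋀^Fin 2]→L[ℝ] ℝ) (hd : Differentiable ℝ ω)
    (hper : ∀ (x : E4) (i : Fin 4), i ≠ 0 → ω (x + Pi.single i 1) = ω x)
    (hcl : ∀ x, extDeriv ω x = 0) (u v : E4) (hu : u 0 = 0) (hv : v 0 = 0)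
    (t0 t1 : ℝ) (ht : t0 ≤ t1) : avg ω t1 u v = avg ω t0 u v := by
  have hdd : ∀ a b : E4, Differentiable ℝ (fun y => ω y ![a, b]) := fun a b =>
    hd.continuousAlternatingMap_apply_const _
  let f : Fin 4 → E4 → ℝ := fun i x =>
    e0 i * ω x ![u, v] - u i * ω x ![e0, v] + v i * ω x ![e0, u]
  let f' : Fin 4 → E4 → E4 →L[ℝ] ℝ := fun i x =>
    e0 i • fderiv ℝ (fun y => ω y ![u, v]) x - u i • fderiv ℝ (fun y => ω y ![e0, v]) x
      + v i • fderiv ℝ (fun y => ω y ![e0, u]) x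
  have hf : ∀ i x, HasFDerivAt (f i) (f' i x) x := by
    intro i x
    exact (((hdd u v x).hasFDerivAt.const_mul (e0 i)).sub
      ((hdd e0 v x).hasFDerivAt.const_mul (u i))).add ((hdd e0 u x).hasFDerivAt.const_mul (v i))
  have hdiv : ∀ x, ∑ i, f' i x (Pi.single i 1) = 0 := by
    intro x
    have h := extDeriv3 ω x (hd x) e0 u v
    rw [hcl x] at h
    simp only [f', _root_.add_apply, _root_.sub_apply,
      _root_.smul_apply, smul_eq_mul, Finset.sum_add_distrib, Finset.sum_sub_distrib,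
      sum_single]
    simpa using h.symm
  have key := integral_divergence_of_hasFDerivAt_off_countable' (E := ℝ) (n := 3)
    (Fin.cons t0 0 : Fin 4 → ℝ) (Fin.cons t1 1 : Fin 4 → ℝ)
    (by
      intro i
      refine Fin.cases ?_ (fun j => ?_) i
      · simpa using ht
      · simp)
    f f' ∅ countable_empty
    (fun i => (continuous_iff_continuousAt.2 (fun x => (hf i x).continuousAt)).continuousOn)
    (fun x _ i => hf i x)
    (by simp only [hdiv]; exact integrableOn_zero)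
  simp only [hdiv] at key
  rw [Fin.sum_univ_succ] at key
  have hins : ∀ (i : Fin 3) (x : Fin 3 → ℝ),
      (i.succ.insertNth (1 : ℝ) x : Fin 4 → ℝ) = i.succ.insertNth (0 : ℝ) x + Pi.single i.succ 1 := by
    intro i x
    funext j
    refine Fin.succAboveCases i.succ ?_ (fun k => ?_) j
    · simp
    · simp [Fin.succAbove_ne]
  have hzero : ∀ i : Fin 3,
      ((∫ (x : Fin 3 → ℝ) in Icc ((Fin.cons t0 0 : Fin 4 → ℝ) ∘ i.succ.succAbove)
            ((Fin.cons t1 1 : Fin 4 → ℝ) ∘ i.succ.succAbove),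
            f i.succ (i.succ.insertNth ((Fin.cons t1 1 : Fin 4 → ℝ) i.succ) x)) -
          ∫ (x : Fin 3 → ℝ) in Icc ((Fin.cons t0 0 : Fin 4 → ℝ) ∘ i.succ.succAbove)
            ((Fin.cons t1 1 : Fin 4 → ℝ) ∘ i.succ.succAbove),
            f i.succ (i.succ.insertNth ((Fin.cons t0 0 : Fin 4 → ℝ) i.succ) x)) = 0 := by
    intro i
    rw [sub_eq_zero]
    congr 1
    funext x
    simp only [Fin.cons_succ, Pi.one_apply, Pi.zero_apply, f]
    rw [hins i x, hper _ i.succ (Fin.succ_ne_zero i)]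
  simp only [hzero, Finset.sum_const_zero, add_zero, integral_zero] at key
  have ha : ((Fin.cons t0 0 : Fin 4 → ℝ) ∘ Fin.succAbove 0) = (0 : Fin 3 → ℝ) := by
    funext j; simp
  have hb : ((Fin.cons t1 1 : Fin 4 → ℝ) ∘ Fin.succAbove 0) = (1 : Fin 3 → ℝ) := by
    funext j; simp
  rw [ha, hb] at key
  have hf0 : ∀ x, f 0 x = ω x ![u, v] := by
    intro x
    simp [f, hu, hv, e0]
  simp only [hf0, Fin.cons_zero] at key
  unfold avg
  linarith

theorem avg_const (ω : E4 → E4 [⋀^Fin 2]→L[ℝ] ℝ) (hd : Differentiable ℝ ω)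
    (hper : ∀ (x : E4) (i : Fin 4), i ≠ 0 → ω (x + Pi.single i 1) = ω x)
    (hcl : ∀ x, extDeriv ω x = 0) (u v : E4) (hu : u 0 = 0) (hv : v 0 = 0)
    (t0 t1 : ℝ) : avg ω t1 u v = avg ω t0 u v := by
  rcases le_total t0 t1 with h | h
  · exact avg_const_le ω hd hper hcl u v hu hv t0 t1 h
  · exact (avg_const_le ω hd hper hcl u v hu hv t1 t0 h).symm

/-- The averaged form at height `0`. -/
noncomputable def avgForm (ω : E4 → E4 [⋀^Fin 2]→L[ℝ] ℝ) : E4 [⋀^Fin 2]→L[ℝ] ℝ :=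
  ∫ y in Icc (0 : Fin 3 → ℝ) 1, ω (Fin.insertNth 0 0 y)

theorem continuous_insert (t : ℝ) : Continuous (fun y : Fin 3 → ℝ => (Fin.insertNth 0 t y : E4)) := by
  apply continuous_pi
  intro j
  refine Fin.cases ?_ (fun k => ?_) j
  · simpa using continuous_const
  · simpa using continuous_apply k

theorem avgForm_apply (ω : E4 → E4 [⋀^Fin 2]→L[ℝ] ℝ) (hc : Continuous ω) (u v : E4) :
    avgForm ω ![u, v] = avg ω 0 u v := by
  have hi : IntegrableOn (fun y : Fin 3 → ℝ => ω (Fin.insertNth 0 0 y)) (Icc 0 1) :=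
    (hc.comp (continuous_insert 0)).integrableOn_Icc
  have := (ContinuousAlternatingMap.apply ℝ E4 ℝ ![u, v]).integral_comp_comm hi
  simpa [avgForm, avg] using this.symm

theorem avg_pos (ω : E4 → E4 [⋀^Fin 2]→L[ℝ] ℝ) (hc : Continuous ω) (t : ℝ) (u v : E4)
    (hpos : ∀ y : Fin 3 → ℝ, 0 < ω (Fin.insertNth 0 t y) ![u, v]) : 0 < avg ω t u v := by
  unfold avg
  have hcont : Continuous (fun y : Fin 3 → ℝ => ω (Fin.insertNth 0 t y) ![u, v]) :=
    (ContinuousAlternatingMap.apply ℝ E4 ℝ ![u, v]).continuous.comp (hc.comp (continuous_insert t))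
  rw [integral_pos_iff_support_of_nonneg (fun y => (hpos y).le) hcont.integrableOn_Icc]
  have hs : Function.support (fun y : Fin 3 → ℝ => ω (Fin.insertNth 0 t y) ![u, v]) = univ := by
    ext y
    simp only [Function.mem_support, mem_univ, iff_true]
    exact (hpos y).ne'
  rw [hs, Measure.restrict_apply_univ, Real.volume_Icc_pi]
  simp

/-- basis vectors -/
def e1 : E4 := ![0, 1, 0, 0]
def e2 : E4 := ![0, 0, 1, 0]
def e3 : E4 := ![0, 0, 0, 1]

theorem f_expand (f : E4 [⋀^Fin 2]→L[ℝ] ℝ) (u v : E4) (hu : u 0 = 0) (hv : v 0 = 0) :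
    f ![u, v] = f ![e2, e3] * (u 2 * v 3 - u 3 * v 2) + f ![e3, e1] * (u 3 * v 1 - u 1 * v 3)
      + f ![e1, e2] * (u 1 * v 2 - u 2 * v 1) := by
  have hu' : u = u 1 • e1 + u 2 • e2 + u 3 • e3 := by
    funext i; fin_cases i <;> simp [e1, e2, e3, hu]
  have hv' : v = v 1 • e1 + v 2 • e2 + v 3 • e3 := by
    funext i; fin_cases i <;> simp [e1, e2, e3, hv]
  conv_lhs => rw [hu', hv']
  simp only [f_add_left, f_add_right, f_smul_left, f_smul_right, f_self]
  rw [f_swap f e2 e1, f_swap f e1 e3, f_swap f e3 e2]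
  ring

/-- The vector dual to the restriction of a 2-form to the hyperplane. -/
noncomputable def dualVec (f : E4 [⋀^Fin 2]→L[ℝ] ℝ) : E4 :=
  ![0, f ![e2, e3], f ![e3, e1], f ![e1, e2]]

theorem vol_dualVec (f : E4 [⋀^Fin 2]→L[ℝ] ℝ) (u v : E4) (hu : u 0 = 0) (hv : v 0 = 0) :
    vol ![e0, dualVec f, u, v] = f ![u, v] := by
  rw [f_expand f u v hu hv, vol_expand]
  simp [e0, dualVec]
  ring

end Vale.Agent.P204
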