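import Vale.Agent.P204.LinAlg

namespace Vale.Agent.P204

open ContinuousAlternatingMap

/-- wedge with a fixed functional on the right, as a continuous linear map in the left factor -/
noncomputable def wedgeR (b : E4 →L[ℝ] ℝ) : (E4 →L[ℝ] ℝ) →L[ℝ] (E4 [⋀^Fin 2]→L[ℝ] ℝ) :=
  (alternatizeUncurryFinCLM ℝ E4 ℝ).comp
    ((ContinuousLinearMap.smulRightL ℝ E4 (E4 [⋀^Fin 1]→L[ℝ] ℝ)).flip
      (ofSubsingleton ℝ E4 ℝ (0 : Fin 1) b))

theorem wedgeR_apply (a b : E4 →L[ℝ] ℝ) (u v : E4) :
    wedgeR b a ![u, v] = a u * b v - a v * b u := by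
  have h : Fin.removeNth 1 ![u, v] 0 = u := rfl
  simp [wedgeR, alternatizeUncurryFin_apply, Fin.sum_univ_succ, h]
  ring

/-- `a ↦ vol (a, w, ., .)` as a continuous linear map into 2-forms. -/
noncomputable def volW (w : E4) : E4 →L[ℝ] (E4 [⋀^Fin 2]→L[ℝ] ℝ) :=
  LinearMap.toContinuousLinearMap
    { toFun := fun a => (vol.curryLeft a).curryLeft w
      map_add' := by intro a b; simp [curryLeft_add]
      map_smul' := by intro r a; simp [curryLeft_smul] }

theorem volW_apply (w a u v : E4) : volW w a ![u, v] = vol ![a, w, u, v] := by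
  simp [volW, curryLeft_apply_apply]

/-- The candidate compatible form at a point, in terms of the value `j` of the almost complex
structure at that point, a fixed vector `w`, and a constant `c`. -/
noncomputable def cand (w : E4) (c : ℝ) (j : E4 →L[ℝ] E4) : E4 [⋀^Fin 2]→L[ℝ] ℝ :=
  ((j w) 0)⁻¹ • volW w (j w)
    + c • wedgeR (ContinuousLinearMap.proj 0) ((ContinuousLinearMap.proj 0).comp j)

theorem cand_apply (w : E4) (c : ℝ) (j : E4 →L[ℝ] E4) (u v : E4) :
    cand w c j ![u, v] = vol ![j w, w, u, v] / (j w) 0 + c * ((j u) 0 * v 0 - u 0 * (j v) 0) := by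
  simp only [cand, ContinuousAlternatingMap.add_apply, ContinuousAlternatingMap.smul_apply,
    wedgeR_apply, volW_apply]
  simp
  ring

theorem cand_contDiff (w : E4) (c : ℝ) (J : E4 → (E4 →L[ℝ] E4)) (hJ : ContDiff ℝ (⊤ : ℕ∞) J)
    (hs : ∀ x, (J x w) 0 ≠ 0) : ContDiff ℝ (⊤ : ℕ∞) (fun x => cand w c (J x)) := by
  unfold cand
  have h1 : ContDiff ℝ (⊤ : ℕ∞) (fun x => J x w) := hJ.clm_apply contDiff_const
  have h2 : ContDiff ℝ (⊤ : ℕ∞) (fun x => (J x w) 0) := by
    exact (contDiff_pi.1 h1) 0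
  have h5 : ContDiff ℝ (⊤ : ℕ∞) (fun x => volW w (J x w)) :=
    (volW w).contDiff.comp h1
  have h6 : ContDiff ℝ (⊤ : ℕ∞) (fun x => wedgeR (ContinuousLinearMap.proj 0)
      ((ContinuousLinearMap.proj 0).comp (J x))) :=
    (wedgeR (ContinuousLinearMap.proj 0)).contDiff.comp (contDiff_const.clm_comp hJ)
  exact ((h2.inv hs).smul h5).add (h6.const_smul c)

section bil
variable (f : E4 [⋀^Fin 2]→L[ℝ] ℝ)

theorem f_add_left (u u' v : E4) : f ![u + u', v] = f ![u, v] + f ![u', v] :=
  f.vecCons_add _ _ _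

theorem f_smul_left (c : ℝ) (u v : E4) : f ![c • u, v] = c * f ![u, v] :=
  f.vecCons_smul _ _ _

theorem f_self (u : E4) : f ![u, u] = 0 :=
  f.map_eq_zero_of_eq ![u, u] (i := 0) (j := 1) rfl (by decide)

theorem f_swap (u v : E4) : f ![u, v] = - f ![v, u] := by
  have h := f.toAlternatingMap.map_swap ![v, u] (i := 0) (j := 1) (by decide)
  have h2 : (![v, u] ∘ Equiv.swap (0 : Fin 2) 1) = ![u, v] := by
    funext i
    fin_cases i <;> simp
  rw [h2] at h
  exact h

theorem f_add_right (u v v' : E4) : f ![u, v + v'] = f ![u, v] + f ![u, v'] := by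
  rw [f_swap f u (v + v'), f_add_left, f_swap f u v, f_swap f u v']
  ring

theorem f_smul_right (c : ℝ) (u v : E4) : f ![u, c • v] = c * f ![u, v] := by
  rw [f_swap f u (c • v), f_smul_left, f_swap f u v]
  ring

theorem decomp0 (u : E4) : u = u 0 • e0 + (u - u 0 • e0) := by abel

theorem sub0 (u : E4) : (u - u 0 • e0) 0 = 0 := by simp [e0]

/-- a 2-form vanishing on the hyperplane `x 0 = 0` is `dx0 ∧ μ`. -/
theorem f_of_vanish (h : ∀ u v : E4, u 0 = 0 → v 0 = 0 → f ![u, v] = 0) (u v : E4) :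
    f ![u, v] = u 0 * f ![e0, v] - v 0 * f ![e0, u] := by
  have h1 := h _ _ (sub0 u) (sub0 v)
  have e1 : f ![u - u 0 • e0, v - v 0 • e0]
      = f ![u, v] - v 0 * f ![u, e0] - u 0 * f ![e0, v] + u 0 * v 0 * f ![e0, e0] := by
    rw [sub_eq_add_neg, sub_eq_add_neg, ← neg_smul, ← neg_smul, f_add_left, f_add_right,
      f_add_right, f_smul_left, f_smul_right, f_smul_left, f_smul_right]
    ring
  rw [e1, f_self, f_swap f u e0] at h1
  linarith

end bil

theorem closed_of_inv (η : E4 → E4 [⋀^Fin 2]→L[ℝ] ℝ) (hd : Differentiable ℝ η)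
    (h1 : ∀ x y : E4, x 0 = y 0 → η x = η y)
    (h2 : ∀ (x y u v : E4), u 0 = 0 → v 0 = 0 → η x ![u, v] = η y ![u, v]) (x : E4) :
    extDeriv η x = 0 := by
  set ψ := fderiv ℝ η x e0 with hψ
  -- derivative in directions tangent to the hyperplane vanishes
  have hz : ∀ a : E4, a 0 = 0 → fderiv ℝ η x a = 0 := by
    intro a ha
    have hline : HasDerivAt (fun s : ℝ => η (x + s • a)) (fderiv ℝ η x a) 0 := by
      have hη : HasFDerivAt η (fderiv ℝ η x) (x + (0 : ℝ) • a) := by
        simpa using (hd x).hasFDerivAt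
      have hl : HasDerivAt (fun s : ℝ => x + s • a) a 0 := by
        simpa using ((hasDerivAt_id (0 : ℝ)).smul_const a).const_add x
      exact hη.comp_hasDerivAt 0 hl
    have hconst : (fun s : ℝ => η (x + s • a)) = fun _ => η x := by
      funext s
      apply h1
      simp [ha]
    rw [hconst] at hline
    exact hline.unique (hasDerivAt_const _ _)
  have hall : ∀ a : E4, fderiv ℝ η x a = a 0 • ψ := by
    intro a
    conv_lhs => rw [decomp0 a]
    rw [map_add, map_smul, hz _ (sub0 a), add_zero]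
  have hvan : ∀ u v : E4, u 0 = 0 → v 0 = 0 → ψ ![u, v] = 0 := by
    intro u v hu hv
    have := fderiv_continuousAlternatingMap_apply_const_apply (hd x) ![u, v] e0
    rw [hψ, ← this]
    have hconst : (fun y => η y ![u, v]) = fun _ => η x ![u, v] := by
      funext y
      exact h2 y x u v hu hv
    rw [hconst]
    simp
  ext m
  rw [extDeriv, alternatizeUncurryFin_apply]
  simp only [hall]
  have hsum := Fin.sum_univ_three (fun i : Fin 3 => (-1 : ℤ) ^ (i : ℕ) • (m i 0 • ψ) (i.removeNth m))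
  refine hsum.trans ?_
  have r0 : Fin.removeNth 0 m = ![m 1, m 2] := by
    funext i; fin_cases i <;> rfl
  have r1 : Fin.removeNth 1 m = ![m 0, m 2] := by
    funext i; fin_cases i <;> rfl
  have r2 : Fin.removeNth 2 m = ![m 0, m 1] := by
    funext i; fin_cases i <;> rfl
  rw [r0, r1, r2]
  simp only [ContinuousAlternatingMap.smul_apply]
  rw [f_of_vanish ψ hvan (m 1) (m 2), f_of_vanish ψ hvan (m 0) (m 2),
    f_of_vanish ψ hvan (m 0) (m 1)]
  simp
  ring

end Vale.Agent.P204
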