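import Mathlib

namespace Vale.Agent.P204

open MeasureTheory Set Module Submodule

abbrev E3 := Fin 3 → ℝ

theorem mem_lat_iff (x : E3) :
    x ∈ span ℤ (Set.range (Pi.basisFun ℝ (Fin 3))) ↔ ∀ i, ∃ n : ℤ, (n : ℝ) = x i := by
  rw [Basis.mem_span_iff_repr_mem]
  simp

/-- the real matrix of an integer matrix -/
noncomputable def rmat (A : Matrix (Fin 3) (Fin 3) ℤ) : Matrix (Fin 3) (Fin 3) ℝ :=
  A.map (Int.cast : ℤ → ℝ)

theorem rmat_det (A : Matrix (Fin 3) (Fin 3) ℤ) : (rmat A).det = (A.det : ℝ) := by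
  have := (Int.castRingHom ℝ).map_det A
  simpa [rmat, RingHom.mapMatrix_apply] using this.symm

theorem rmat_mul (A B : Matrix (Fin 3) (Fin 3) ℤ) : rmat (A * B) = rmat A * rmat B := by
  have := (Int.castRingHom ℝ).mapMatrix.map_mul A B
  simpa [rmat, RingHom.mapMatrix_apply] using this

theorem rmat_lat (A : Matrix (Fin 3) (Fin 3) ℤ) (x : E3)
    (hx : x ∈ span ℤ (Set.range (Pi.basisFun ℝ (Fin 3)))) :
    (rmat A).mulVec x ∈ span ℤ (Set.range (Pi.basisFun ℝ (Fin 3))) := by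
  rw [mem_lat_iff] at hx ⊢
  choose n hn using hx
  intro i
  refine ⟨∑ j, A i j * n j, ?_⟩
  simp [Matrix.mulVec, dotProduct, rmat, hn]

theorem det_toLin (A : Matrix (Fin 3) (Fin 3) ℤ) (hA : A.det = 1) :
    LinearMap.det (Matrix.toLin' (rmat A)) = 1 := by
  rw [LinearMap.det_toLin', rmat_det, hA]; simp

noncomputable def matEquiv (A : Matrix (Fin 3) (Fin 3) ℤ) (hA : A.det = 1) : E3 ≃ₗ[ℝ] E3 :=
  LinearMap.equivOfDetNeZero (Matrix.toLin' (rmat A)) (by rw [det_toLin A hA]; exact one_ne_zero)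

theorem matEquiv_apply (A : Matrix (Fin 3) (Fin 3) ℤ) (hA : A.det = 1) (x : E3) :
    matEquiv A hA x = (rmat A).mulVec x := by
  simp [matEquiv]

theorem matEquiv_lat (A : Matrix (Fin 3) (Fin 3) ℤ) (hA : A.det = 1) :
    Submodule.map ((matEquiv A hA).restrictScalars ℤ : E3 →ₗ[ℤ] E3)
      (span ℤ (Set.range (Pi.basisFun ℝ (Fin 3)))) = span ℤ (Set.range (Pi.basisFun ℝ (Fin 3))) := by
  apply le_antisymm
  · rintro y ⟨x, hx, rfl⟩
    have : ((matEquiv A hA).restrictScalars ℤ : E3 →ₗ[ℤ] E3) x = (rmat A).mulVec x :=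
      matEquiv_apply A hA x
    rw [this]
    exact rmat_lat A x hx
  · intro y hy
    refine ⟨(rmat A.adjugate).mulVec y, rmat_lat _ y hy, ?_⟩
    have : ((matEquiv A hA).restrictScalars ℤ : E3 →ₗ[ℤ] E3) ((rmat A.adjugate).mulVec y)
        = (rmat A).mulVec ((rmat A.adjugate).mulVec y) := matEquiv_apply A hA _
    rw [this, Matrix.mulVec_mulVec, ← rmat_mul, Matrix.mul_adjugate, hA]
    simp [rmat]

theorem torus_cov (f : E3 ≃ₗ[ℝ] E3)
    (hdet : LinearMap.det (f : E3 →ₗ[ℝ] E3) = 1)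
    (hlat : Submodule.map (f.restrictScalars ℤ : E3 →ₗ[ℤ] E3)
      (span ℤ (Set.range (Pi.basisFun ℝ (Fin 3)))) = span ℤ (Set.range (Pi.basisFun ℝ (Fin 3))))
    (φ : E3 → ℝ)
    (hper : ∀ v ∈ span ℤ (Set.range (Pi.basisFun ℝ (Fin 3))), ∀ y, φ (v + y) = φ y) :
    ∫ y in Icc (0 : E3) 1, φ (f y) = ∫ y in Icc (0 : E3) 1, φ y := by
  set b := Pi.basisFun ℝ (Fin 3) with hb
  have h1 := ZSpan.isAddFundamentalDomain' b (volume : Measure E3)
  have h2 := ZSpan.isAddFundamentalDomain' (b.map f) (volume : Measure E3)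
  rw [← ZSpan.map b f, hlat] at h2
  have : Countable (span ℤ (Set.range b)).toAddSubgroup :=
    inferInstanceAs (Countable (span ℤ (Set.range b)))
  have h3 := h1.setIntegral_eq h2 (f := φ) (fun g x => hper g.1 g.2 x)
  rw [← ZSpan.map_fundamentalDomain] at h3
  have hmp : MeasurePreserving f (volume : Measure E3) volume := by
    constructor
    · exact f.toContinuousLinearEquiv.continuous.measurable
    · have := Real.map_linearMap_volume_pi_eq_smul_volume_pi (f := (f : E3 →ₗ[ℝ] E3))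
        (by rw [hdet]; exact one_ne_zero)
      rw [hdet] at this
      simpa using this
  have hemb : MeasurableEmbedding f := f.toContinuousLinearEquiv.toHomeomorph.measurableEmbedding
  rw [hmp.setIntegral_image_emb hemb] at h3
  have hF : ZSpan.fundamentalDomain b =ᵐ[volume] Icc (0 : E3) 1 := by
    rw [hb, ZSpan.fundamentalDomain_pi_basisFun]
    exact Measure.univ_pi_Ico_ae_eq_Icc
  rw [setIntegral_congr_set hF, setIntegral_congr_set hF] at h3
  exact h3.symm


end Vale.Agent.P204
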