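import Mathlib

namespace Vale.Agent.P204

/-- The model space. -/
abbrev E4 := Fin 4 → ℝ

/-- The determinant (of the matrix with the given rows) as a continuous alternating 4-form. -/
noncomputable def vol : E4 [⋀^Fin 4]→L[ℝ] ℝ :=
  { (Matrix.detRowAlternating (n := Fin 4) (R := ℝ)) with
    cont := by
      have : Continuous fun m : Fin 4 → E4 => Matrix.det (Matrix.of m) :=
        Continuous.matrix_det (by fun_prop)
      exact this }

theorem vol_apply (m : Fin 4 → E4) : vol m = Matrix.det (Matrix.of m) := rfl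

theorem vol_expand (a b c d : E4) :
    vol ![a, b, c, d] =
      (a 0 * b 1 - a 1 * b 0) * (c 2 * d 3 - c 3 * d 2)
      - (a 0 * b 2 - a 2 * b 0) * (c 1 * d 3 - c 3 * d 1)
      + (a 0 * b 3 - a 3 * b 0) * (c 1 * d 2 - c 2 * d 1)
      + (a 1 * b 2 - a 2 * b 1) * (c 0 * d 3 - c 3 * d 0)
      - (a 1 * b 3 - a 3 * b 1) * (c 0 * d 2 - c 2 * d 0)
      + (a 2 * b 3 - a 3 * b 2) * (c 0 * d 1 - c 1 * d 0) := by
  rw [vol_apply]
  simp [Matrix.det_succ_row_zero, Fin.sum_univ_succ, Fin.succAbove]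
  ring

theorem vol_comp (J : E4 →L[ℝ] E4) (m : Fin 4 → E4) :
    vol (fun i => J (m i)) = LinearMap.det (J : E4 →ₗ[ℝ] E4) * vol m := by
  have h := Module.Basis.det_comp (Pi.basisFun ℝ (Fin 4)) (J : E4 →ₗ[ℝ] E4) m
  rw [Pi.basisFun_det] at h
  exact h

/-- first basis vector -/
def e0 : E4 := ![1, 0, 0, 0]

theorem vol_first (a w u v : E4) (hw : w 0 = 0) (hu : u 0 = 0) (hv : v 0 = 0) :
    vol ![a, w, u, v] = a 0 * vol ![e0, w, u, v] := by
  simp only [vol_expand, hw, hu, hv, e0]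
  simp
  ring

theorem exists_K (J : E4 →L[ℝ] E4) : ∃ k : E4, k 0 = 0 ∧ (J k) 0 = 0 ∧ k ≠ 0 := by
  let f : E4 →ₗ[ℝ] (Fin 2 → ℝ) :=
    LinearMap.pi ![LinearMap.proj 0, (LinearMap.proj 0).comp (J : E4 →ₗ[ℝ] E4)]
  have h : LinearMap.ker f ≠ ⊥ := by
    apply LinearMap.ker_ne_bot_of_finrank_lt
    simp
  obtain ⟨k, hk, hk0⟩ := (Submodule.ne_bot_iff _).1 h
  refine ⟨k, ?_, ?_, hk0⟩
  · have := congrFun (LinearMap.mem_ker.1 hk) 0
    simpa [f] using this
  · have := congrFun (LinearMap.mem_ker.1 hk) 1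
    simpa [f] using this

section pointwise

variable (J : E4 →L[ℝ] E4) (hJ : ∀ v, J (J v) = -v) (w : E4) (hw : w 0 = 0)
  (H : ∀ k : E4, k 0 = 0 → (J k) 0 = 0 → k ≠ 0 → 0 < vol ![e0, w, k, J k])

include hJ hw H
set_option linter.unusedSectionVars false

theorem s_ne_zero : (J w) 0 ≠ 0 := by
  intro hs
  by_cases hw0 : w = 0
  · obtain ⟨k, hk1, hk2, hk3⟩ := exists_K J
    have := H k hk1 hk2 hk3
    rw [hw0, vol_expand] at this
    simp at this
  · have := H w hw hs hw0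
    rw [vol_expand] at this
    ring_nf at this
    simp at this

theorem D_J (u v : E4) :
    vol ![J w, w, J u, J v] = LinearMap.det (J : E4 →ₗ[ℝ] E4) * vol ![J w, w, u, v] := by
  have h1 : (![J w, w, J u, J v] : Fin 4 → E4) = fun i => J (![w, - J w, u, v] i) := by
    funext i
    fin_cases i <;> simp [hJ]
  rw [h1, vol_comp]
  congr 1
  simp only [vol_expand]
  simp
  ring

theorem det_J : LinearMap.det (J : E4 →ₗ[ℝ] E4) = 1 := by
  obtain ⟨k, hk1, hk2, hk3⟩ := exists_K J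
  have hpos := H k hk1 hk2 hk3
  have hs := s_ne_zero J hJ w hw H
  have h1 := D_J J hJ w hw H k (J k)
  have h2 : vol ![J w, w, J k, J (J k)] = vol ![J w, w, k, J k] := by
    rw [hJ]
    simp only [vol_expand]
    simp
    ring
  rw [h2, vol_first (J w) w k (J k) hw hk1 hk2] at h1
  have h3 : (J w) 0 * vol ![e0, w, k, J k] ≠ 0 := mul_ne_zero hs hpos.ne'
  have := mul_right_cancel₀ h3 (by rw [one_mul]; exact h1 :
    1 * ((J w) 0 * vol ![e0, w, k, J k]) = LinearMap.det (J : E4 →ₗ[ℝ] E4) * ((J w) 0 * vol ![e0, w, k, J k]))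
  exact this.symm

theorem D_inv (u v : E4) : vol ![J w, w, J u, J v] = vol ![J w, w, u, v] := by
  rw [D_J J hJ w hw H, det_J J hJ w hw H, one_mul]

theorem D_pos (v : E4) (c : ℝ) (hc : 0 < c) (hv : v ≠ 0) :
    0 < vol ![J w, w, v, J v] / (J w) 0 + c * ((J v) 0 * (J v) 0 - v 0 * (J (J v)) 0) := by
  have hs := s_ne_zero J hJ w hw H
  set s := (J w) 0 with hsdef
  -- the projection to K
  set p : E4 := v - (v 0 / s) • J w - ((J v) 0 / s) • w with hp
  have hp0 : p 0 = 0 := by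
    simp only [hp, Pi.sub_apply, Pi.smul_apply, smul_eq_mul, hw, ← hsdef]
    field_simp
    ring
  have hJp : J p = J v + (v 0 / s) • w - ((J v) 0 / s) • J w := by
    simp only [hp, map_sub, map_smul, hJ]
    simp
  have hJp0 : (J p) 0 = 0 := by
    rw [hJp]
    simp only [Pi.sub_apply, Pi.add_apply, Pi.smul_apply, smul_eq_mul, hw, ← hsdef]
    field_simp
    ring
  have hD : vol ![J w, w, v, J v] = vol ![J w, w, p, J p] := by
    rw [hJp, hp]
    simp only [vol_expand, Pi.sub_apply, Pi.add_apply, Pi.smul_apply, smul_eq_mul]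
    ring
  have hq : (J v) 0 * (J v) 0 - v 0 * (J (J v)) 0 = (J v) 0 ^ 2 + v 0 ^ 2 := by
    rw [hJ]; simp; ring
  rw [hD, vol_first (J w) w p (J p) hw hp0 hJp0, hq, ← hsdef, mul_div_cancel_left₀ _ hs]
  by_cases hp1 : p = 0
  · have hne : (J v) 0 ^ 2 + v 0 ^ 2 ≠ 0 := by
      intro h0
      have h1 : (J v) 0 = 0 := by nlinarith [sq_nonneg ((J v) 0), sq_nonneg (v 0)]
      have h2 : v 0 = 0 := by nlinarith [sq_nonneg ((J v) 0), sq_nonneg (v 0)]
      apply hv
      have : p = v := by simp [hp, h1, h2]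
      rw [← this, hp1]
    have hpos : 0 < (J v) 0 ^ 2 + v 0 ^ 2 := lt_of_le_of_ne (by positivity) (Ne.symm hne)
    rw [hp1]
    have : vol ![e0, w, (0 : E4), J 0] = 0 := by
      simp [vol_expand]
    rw [this, zero_add]
    exact mul_pos hc hpos
  · have := H p hp0 hJp0 hp1
    have h2 : 0 ≤ c * ((J v) 0 ^ 2 + v 0 ^ 2) := by positivity
    linarith

end pointwise

end Vale.Agent.P204
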