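import Mathlib

/-!
Definitions for tensor fields on the mapping torus `X_A = ℝ^4 / Γ_A` of a matrix `A ∈ SL(3, ℤ)`,
where `Γ_A` is generated by the translations by `{0} × ℤ^3` and by `(t, y) ↦ (t + 1, A y)`.
-/

namespace Vale.Agent.P204

/-- The universal cover `ℝ^4 = ℝ × ℝ^3`, with coordinates `(t, y) = (x 0, (x 1, x 2, x 3))`. -/
abbrev R4 : Type := Fin 4 → ℝ

/-- The linear map `(t, y) ↦ (t, A y)`. -/
noncomputable def hat (A : Matrix (Fin 3) (Fin 3) ℤ) (x : R4) : R4 :=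
  Fin.cons (x 0) ((A.map (Int.cast : ℤ → ℝ)).mulVec (Fin.tail x))

/-- The deck transformation `(t, y) ↦ (t + 1, A y)`. -/
noncomputable def deck (A : Matrix (Fin 3) (Fin 3) ℤ) (x : R4) : R4 :=
  Fin.cons (x 0 + 1) ((A.map (Int.cast : ℤ → ℝ)).mulVec (Fin.tail x))

/-- A field on `ℝ^4` is invariant under the translations by `{0} × ℤ^3`. -/
def FibrePeriodic {α : Type} (F : R4 → α) : Prop :=
  ∀ (x : R4) (k : Fin 4 → ℤ), k 0 = 0 → F (x + fun i => (k i : ℝ)) = F x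

/-- A smooth almost complex structure on `X_A`. -/
def IsAlmostComplexOn (A : Matrix (Fin 3) (Fin 3) ℤ) (J : R4 → (R4 →L[ℝ] R4)) : Prop :=
  ContDiff ℝ (⊤ : ℕ∞) J ∧ FibrePeriodic J ∧ (∀ x v, J (deck A x) (hat A v) = hat A (J x v)) ∧
    ∀ x v, J x (J x v) = -v

/-- A smooth closed two-form on `X_A`. -/
def IsClosedFormOn (A : Matrix (Fin 3) (Fin 3) ℤ) (ω : R4 → R4 [⋀^Fin 2]→L[ℝ] ℝ) : Prop :=
  ContDiff ℝ (⊤ : ℕ∞) ω ∧ FibrePeriodic ω ∧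
    (∀ x u v, ω (deck A x) ![hat A u, hat A v] = ω x ![u, v]) ∧ ∀ x, extDeriv ω x = 0

/-- The two-form `ω` tames `J`. -/
def Tames (ω : R4 → R4 [⋀^Fin 2]→L[ℝ] ℝ) (J : R4 → (R4 →L[ℝ] R4)) : Prop :=
  ∀ x v, v ≠ 0 → 0 < ω x ![v, J x v]

/-- The two-form `ω` is `J`-invariant. -/
def IsInvariant (ω : R4 → R4 [⋀^Fin 2]→L[ℝ] ℝ) (J : R4 → (R4 →L[ℝ] R4)) : Prop :=
  ∀ x u v, ω x ![J x u, J x v] = ω x ![u, v]

end Vale.Agent.P204
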