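import Vale.Agent.P204.MapDefs
import Vale.Agent.P204.Lattice
import Vale.Agent.P204.Average

namespace Vale.Agent.P204

open ContinuousAlternatingMap MeasureTheory Set

variable (A : Matrix (Fin 3) (Fin 3) ℤ)

theorem hat_zero (x : R4) : hat A x 0 = x 0 := by simp [hat]

theorem hat_succ (x : R4) (i : Fin 3) : hat A x i.succ = (rmat A).mulVec (Fin.tail x) i := by
  simp [hat, rmat]

/-- `hat A` as a continuous linear map -/
noncomputable def hatL : R4 →L[ℝ] R4 :=
  LinearMap.toContinuousLinearMap
    { toFun := hat A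
      map_add' := by
        intro x y
        funext i
        refine Fin.cases ?_ (fun j => ?_) i
        · simp [hat_zero]
        · have : Fin.tail (x + y) = Fin.tail x + Fin.tail y := rfl
          simp [hat_succ, this, Matrix.mulVec_add]
      map_smul' := by
        intro c x
        funext i
        refine Fin.cases ?_ (fun j => ?_) i
        · simp [hat_zero]
        · have : Fin.tail (c • x) = c • Fin.tail x := rfl
          simp [hat_succ, this, Matrix.mulVec_smul] }

theorem hatL_apply (x : R4) : hatL A x = hat A x := rfl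

theorem hatL_det (hA : A.det = 1) : LinearMap.det (hatL A : R4 →ₗ[ℝ] R4) = 1 := by
  rw [← LinearMap.det_toMatrix', Matrix.det_succ_row_zero, Fin.sum_univ_succ]
  have h0 : ∀ j : Fin 4, LinearMap.toMatrix' (hatL A : R4 →ₗ[ℝ] R4) 0 j = if j = 0 then 1 else 0 := by
    intro j
    rw [LinearMap.toMatrix'_apply]
    have : (hatL A : R4 →ₗ[ℝ] R4) (Pi.single j 1) 0 = hat A (Pi.single j 1) 0 := rfl
    rw [this, hat_zero, Pi.single_apply]
    simp [eq_comm]
  have hsub : (LinearMap.toMatrix' (hatL A : R4 →ₗ[ℝ] R4)).submatrix Fin.succ (Fin.succAbove 0)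
      = rmat A := by
    ext i j
    rw [Matrix.submatrix_apply, LinearMap.toMatrix'_apply]
    have h1 : (hatL A : R4 →ₗ[ℝ] R4) (Pi.single (Fin.succAbove 0 j) 1) i.succ
        = hat A (Pi.single (Fin.succAbove 0 j) 1) i.succ := rfl
    rw [h1, hat_succ]
    have : Fin.tail (Pi.single (Fin.succAbove 0 j) (1 : ℝ) : R4) = Pi.single j 1 := by
      funext l
      simp [Fin.tail, Pi.single_apply]
    rw [this]
    simp
  simp only [h0, hsub]
  simp [rmat_det, hA]


theorem hat_e0 : hat A e0 = e0 := by
  funext i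
  refine Fin.cases ?_ (fun j => ?_) i
  · simp [hat_zero]
  · rw [hat_succ]
    have : Fin.tail e0 = 0 := by
      funext l
      fin_cases l <;> simp [Fin.tail, e0]
    rw [this]
    fin_cases j <;> simp [e0]

theorem hat_hat_adj (hA : A.det = 1) (x : R4) : hat A (hat A.adjugate x) = x := by
  funext i
  refine Fin.cases ?_ (fun j => ?_) i
  · simp [hat_zero]
  · rw [hat_succ]
    have : Fin.tail (hat A.adjugate x) = (rmat A.adjugate).mulVec (Fin.tail x) := by
      funext l
      exact hat_succ _ _ _
    rw [this, Matrix.mulVec_mulVec, ← rmat_mul, Matrix.mul_adjugate, hA]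
    simp [rmat, Fin.tail]

theorem deck_insert (t : ℝ) (y : Fin 3 → ℝ) :
    deck A (Fin.insertNth 0 t y) = Fin.insertNth 0 (t + 1) ((rmat A).mulVec y) := by
  simp [deck, rmat]

theorem vol_hat (hA : A.det = 1) (a b c d : R4) :
    vol ![hat A a, hat A b, hat A c, hat A d] = vol ![a, b, c, d] := by
  have h := vol_comp (hatL A) ![a, b, c, d]
  rw [hatL_det A hA, one_mul] at h
  rw [← h]
  congr 1
  funext i
  fin_cases i <;> rfl

theorem avg_equiv (hA : A.det = 1) (ω : R4 → R4 [⋀^Fin 2]→L[ℝ] ℝ)
    (hper : FibrePeriodic ω)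
    (heq : ∀ x u v, ω (deck A x) ![hat A u, hat A v] = ω x ![u, v]) (t : ℝ) (u v : R4) :
    avg ω (t + 1) (hat A u) (hat A v) = avg ω t u v := by
  unfold avg
  have h := torus_cov (matEquiv A hA)
    (by
      have : ((matEquiv A hA : E3 ≃ₗ[ℝ] E3) : E3 →ₗ[ℝ] E3) = Matrix.toLin' (rmat A) := by
        ext x : 1
        simp [matEquiv]
      rw [this]; exact det_toLin A hA)
    (matEquiv_lat A hA)
    (fun y => ω (Fin.insertNth 0 (t + 1) y) ![hat A u, hat A v])
    (by
      intro z hz y
      rw [mem_lat_iff] at hz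
      choose n hn using hz
      have := hper (Fin.insertNth 0 (t + 1) y) (Fin.cons 0 n) (by simp)
      have e : (Fin.insertNth 0 (t + 1) (z + y) : R4)
          = Fin.insertNth 0 (t + 1) y + fun i => ((Fin.cons 0 n : Fin 4 → ℤ) i : ℝ) := by
        funext i
        refine Fin.cases ?_ (fun j => ?_) i
        · simp
        · simp [hn, add_comm]
      simp only [e, this])
  rw [← h]
  congr 1
  funext y
  rw [matEquiv_apply, ← deck_insert, heq]

end Vale.Agent.P204
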