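import Vale.Agent.P204.MapLemmas

namespace Vale.Agent.P204

open ContinuousAlternatingMap MeasureTheory Set

theorem vec_eq_zero_of_vol (z : R4) (hz : z 0 = 0)
    (h : ∀ u v : R4, u 0 = 0 → v 0 = 0 → vol ![e0, z, u, v] = 0) : z = 0 := by
  have h1 := h e2 e3 (by simp [e2]) (by simp [e3])
  have h2 := h e3 e1 (by simp [e3]) (by simp [e1])
  have h3 := h e1 e2 (by simp [e1]) (by simp [e2])
  rw [vol_expand] at h1 h2 h3
  simp [e0, e1, e2, e3] at h1 h2 h3
  funext i
  fin_cases i
  · exact hz
  · simpa using h1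
  · simpa using h2
  · simpa using h3

theorem map_main (A : Matrix (Fin 3) (Fin 3) ℤ) (hA : A.det = 1)
    (J : R4 → (R4 →L[ℝ] R4)) (hJ : IsAlmostComplexOn A J)
    (hJinv : ∀ x y : R4, x 0 = y 0 → J x = J y)
    (htamed : ∃ ω, IsClosedFormOn A ω ∧ Tames ω J) :
    ∃ ω', IsClosedFormOn A ω' ∧ Tames ω' J ∧ IsInvariant ω' J := by
  obtain ⟨hJs, -, hJeq, hJ2⟩ := hJ
  obtain ⟨ω, ⟨hωs, hωper, hωeq, hωcl⟩, hωtame⟩ := htamed
  have hωd : Differentiable ℝ ω := hωs.differentiable (by simp)
  have hωc : Continuous ω := hωs.continuous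
  have hper1 : ∀ (x : E4) (i : Fin 4), i ≠ 0 → ω (x + Pi.single i 1) = ω x := by
    intro x i hi
    have h := hωper x (Pi.single i 1) (by simp [hi.symm])
    have e : (fun j => ((Pi.single i (1 : ℤ) : Fin 4 → ℤ) j : ℝ)) = (Pi.single i (1 : ℝ) : E4) := by
      funext j
      by_cases hj : j = i
      · subst hj; simp
      · simp [hj]
    rw [e] at h
    exact h
  set w : E4 := dualVec (avgForm ω) with hwdef
  have hw : w 0 = 0 := by simp [hwdef, dualVec]
  have H : ∀ x : E4, ∀ k : E4, k 0 = 0 → (J x k) 0 = 0 → k ≠ 0 → 0 < vol ![e0, w, k, J x k] := by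
    intro x k hk1 hk2 hk3
    rw [hwdef, vol_dualVec _ _ _ hk1 hk2, avgForm_apply ω hωc,
      ← avg_const ω hωd hper1 hωcl k (J x k) hk1 hk2 0 (x 0)]
    apply avg_pos ω hωc
    intro y
    have hJe : J x = J (Fin.insertNth 0 (x 0) y) := hJinv _ _ (by simp)
    rw [hJe]
    exact hωtame _ k hk3
  have hs : ∀ x, (J x w) 0 ≠ 0 := fun x => s_ne_zero (J x) (hJ2 x) w hw (H x)
  -- the vector `w` is fixed by the monodromy
  have hfix : hat A w = w := by
    have hz : hat A w - w = 0 := by
      apply vec_eq_zero_of_vol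
      · simp [hat_zero, hw]
      · intro u' v' hu' hv'
        set u := hat A.adjugate u' with hu
        set v := hat A.adjugate v' with hv
        have hu0 : u 0 = 0 := by rw [hu, hat_zero, hu']
        have hv0 : v 0 = 0 := by rw [hv, hat_zero, hv']
        have eu : hat A u = u' := hat_hat_adj A hA u'
        have ev : hat A v = v' := hat_hat_adj A hA v'
        have h1 : vol ![e0, w, u', v'] = vol ![e0, w, u, v] := by
          rw [hwdef, vol_dualVec _ _ _ hu' hv', vol_dualVec _ _ _ hu0 hv0, avgForm_apply ω hωc,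
            avgForm_apply ω hωc, ← eu, ← ev,
            ← avg_const ω hωd hper1 hωcl (hat A u) (hat A v) (by rw [eu, hu']) (by rw [ev, hv'])
              0 (0 + 1),
            avg_equiv A hA ω hωper hωeq]
        have h2 : vol ![e0, hat A w, u', v'] = vol ![e0, w, u, v] := by
          rw [← vol_hat A hA e0 w u v, hat_e0, eu, ev]
        have h3 : vol ![e0, hat A w - w, u', v'] = vol ![e0, hat A w, u', v'] - vol ![e0, w, u', v'] := by
          simp only [vol_expand, Pi.sub_apply]
          ring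
        rw [h3, h1, h2, sub_self]
    exact sub_eq_zero.1 hz
  have hsm : ContDiff ℝ (⊤ : ℕ∞) (fun x => cand w 1 (J x)) := cand_contDiff w 1 J hJs hs
  refine ⟨fun x => cand w 1 (J x), ⟨hsm, ?_, ?_, ?_⟩, ?_, ?_⟩
  · intro x k hk
    show cand w 1 (J (x + fun i => (k i : ℝ))) = cand w 1 (J x)
    rw [hJinv (x + fun i => (k i : ℝ)) x (by simp [hk])]
  · intro x u v
    show cand w 1 (J (deck A x)) ![hat A u, hat A v] = cand w 1 (J x) ![u, v]
    have hJw : J (deck A x) w = hat A (J x w) := by
      rw [← hJeq x w, hfix]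
    rw [cand_apply, cand_apply, hJw, hJeq, hJeq]
    simp only [hat_zero]
    congr 2
    have h4 := vol_hat A hA (J x w) w u v
    rw [hfix] at h4
    exact h4
  · apply closed_of_inv _ (hsm.differentiable (by simp))
    · intro x y hxy
      show cand w 1 (J x) = cand w 1 (J y)
      rw [hJinv x y hxy]
    · intro x y u v hu hv
      show cand w 1 (J x) ![u, v] = cand w 1 (J y) ![u, v]
      rw [cand_apply, cand_apply, vol_first (J x w) w u v hw hu hv,
        vol_first (J y w) w u v hw hu hv, mul_div_cancel_left₀ _ (hs x),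
        mul_div_cancel_left₀ _ (hs y), hu, hv]
      ring
  · intro x v hv
    show 0 < cand w 1 (J x) ![v, J x v]
    rw [cand_apply]
    exact D_pos (J x) (hJ2 x) w hw (H x) v 1 one_pos hv
  · intro x u v
    show cand w 1 (J x) ![J x u, J x v] = cand w 1 (J x) ![u, v]
    rw [cand_apply, cand_apply, D_inv (J x) (hJ2 x) w hw (H x), hJ2, hJ2]
    simp
    ring

end Vale.Agent.P204
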