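import Vale.Agent.P204.Average

/-!
Donaldson's tamed-to-compatible question on the four-torus `T^4 = ℝ^4 / ℤ^4`, for almost complex
structures that are invariant under the translations of a three-dimensional subtorus.

Tensor fields on `T^4` are modelled as `ℤ^4`-periodic smooth tensor fields on `ℝ^4 = Fin 4 → ℝ`;
two-forms are maps into continuous alternating maps and closedness is `extDeriv = 0`.
-/

namespace Vale.Agent.P204


theorem torus_main
    (J : (Fin 4 → ℝ) → ((Fin 4 → ℝ) →L[ℝ] (Fin 4 → ℝ)))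
    (hJs : ContDiff ℝ (⊤ : ℕ∞) J)
    (hJ2 : ∀ x v, J x (J x v) = -v)
    (hJper : ∀ (x : Fin 4 → ℝ) (k : Fin 4 → ℤ), J (x + fun i => (k i : ℝ)) = J x)
    (hJinv : ∀ x y : Fin 4 → ℝ, x 0 = y 0 → J x = J y)
    (ω : (Fin 4 → ℝ) → (Fin 4 → ℝ) [⋀^Fin 2]→L[ℝ] ℝ)
    (hωs : ContDiff ℝ (⊤ : ℕ∞) ω)
    (hωper : ∀ (x : Fin 4 → ℝ) (k : Fin 4 → ℤ), ω (x + fun i => (k i : ℝ)) = ω x)
    (hωcl : ∀ x, extDeriv ω x = 0)
    (hωtame : ∀ x v, v ≠ 0 → 0 < ω x ![v, J x v]) :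
    ∃ ω' : (Fin 4 → ℝ) → (Fin 4 → ℝ) [⋀^Fin 2]→L[ℝ] ℝ,
      ContDiff ℝ (⊤ : ℕ∞) ω' ∧
      (∀ (x : Fin 4 → ℝ) (k : Fin 4 → ℤ), ω' (x + fun i => (k i : ℝ)) = ω' x) ∧
      (∀ x, extDeriv ω' x = 0) ∧
      (∀ x v, v ≠ 0 → 0 < ω' x ![v, J x v]) ∧
      (∀ x u v, ω' x ![J x u, J x v] = ω' x ![u, v]) := by
  have hωd : Differentiable ℝ ω := hωs.differentiable (by simp)
  have hωc : Continuous ω := hωs.continuous
  have hper1 : ∀ (x : E4) (i : Fin 4), i ≠ 0 → ω (x + Pi.single i 1) = ω x := by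
    intro x i _
    have h := hωper x (Pi.single i 1)
    have e : (fun j => ((Pi.single i (1 : ℤ) : Fin 4 → ℤ) j : ℝ)) = (Pi.single i (1 : ℝ) : E4) := by
      funext j
      by_cases hj : j = i
      · subst hj; simp
      · simp [hj]
    rw [e] at h
    exact h
  set w : E4 := dualVec (avgForm ω) with hwdef
  have hw : w 0 = 0 := by simp [hwdef, dualVec]
  have H : ∀ x : E4, ∀ k : E4, k 0 = 0 → (J x k) 0 = 0 → k ≠ 0 → 0 < vol ![e0, w, k, J x k] := by
    intro x k hk1 hk2 hk3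
    rw [hwdef, vol_dualVec _ _ _ hk1 hk2, avgForm_apply ω hωc,
      ← avg_const ω hωd hper1 hωcl k (J x k) hk1 hk2 0 (x 0)]
    apply avg_pos ω hωc
    intro y
    have hJe : J x = J (Fin.insertNth 0 (x 0) y) := hJinv _ _ (by simp)
    rw [hJe]
    exact hωtame _ k hk3
  have hs : ∀ x, (J x w) 0 ≠ 0 := fun x => s_ne_zero (J x) (hJ2 x) w hw (H x)
  have hsm : ContDiff ℝ (⊤ : ℕ∞) (fun x => cand w 1 (J x)) := cand_contDiff w 1 J hJs hs
  refine ⟨fun x => cand w 1 (J x), hsm, ?_, ?_, ?_, ?_⟩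
  · intro x k
    show cand w 1 (J (x + fun i => (k i : ℝ))) = cand w 1 (J x)
    rw [hJper x k]
  · apply closed_of_inv _ (hsm.differentiable (by simp))
    · intro x y hxy
      show cand w 1 (J x) = cand w 1 (J y)
      rw [hJinv x y hxy]
    · intro x y u v hu hv
      show cand w 1 (J x) ![u, v] = cand w 1 (J y) ![u, v]
      rw [cand_apply, cand_apply, vol_first (J x w) w u v hw hu hv,
        vol_first (J y w) w u v hw hu hv, mul_div_cancel_left₀ _ (hs x),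
        mul_div_cancel_left₀ _ (hs y), hu, hv]
      ring
  · intro x v hv
    rw [cand_apply]
    exact D_pos (J x) (hJ2 x) w hw (H x) v 1 one_pos hv
  · intro x u v
    rw [cand_apply, cand_apply, D_inv (J x) (hJ2 x) w hw (H x), hJ2, hJ2]
    simp
    ring

end Vale.Agent.P204
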